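import Vale.Agent.P318.H937.Spec

/-!
# P318: `SpecKILL` (second source)

The number of seeds `y` for which the view of a nonzero element is zero.
-/

open Finset

namespace Vale.Agent.P318.H40

open Vale.Agent.P318.H937

section Count

variable {M : ℕ} {Sd : Type} [Fintype Sd] [DecidableEq Sd]

/-- exchange of the coordinate `v` with a second variable -/
def swp (v : Fin M) (p : (Fin M → Sd) × Sd) : (Fin M → Sd) × Sd :=
  (Function.update p.1 v p.2, p.1 v)

omit [Fintype Sd] [DecidableEq Sd] in
lemma swp_invol (v : Fin M) : Function.Involutive (swp (Sd := Sd) v) := by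
  rintro ⟨y, a⟩
  simp [swp]

omit [Fintype Sd] [DecidableEq Sd] in
/-- resampling one coordinate, product sets -/
lemma sum_resample_pi (v : Fin M) (S : Fin M → Finset Sd) (F : (Fin M → Sd) → ℝ) :
    ∑ y ∈ Fintype.piFinset S, ∑ a ∈ S v, F (Function.update y v a) =
      (S v).card * ∑ y ∈ Fintype.piFinset S, F y := by
  rw [← Finset.sum_product', Finset.mul_sum]
  have h1 : ∑ y ∈ Fintype.piFinset S, ((S v).card : ℝ) * F y =
      ∑ p ∈ Fintype.piFinset S ×ˢ S v, F p.1 := by
    rw [Finset.sum_product]
    refine Finset.sum_congr rfl fun y _ => ?_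
    simp
  rw [h1]
  refine Finset.sum_bij' (fun p _ => swp v p) (fun p _ => swp v p) ?_ ?_ ?_ ?_ ?_
  · rintro ⟨y, a⟩ hp
    rw [Finset.mem_product, Fintype.mem_piFinset] at hp ⊢
    refine ⟨fun w => ?_, hp.1 v⟩
    by_cases hw : w = v
    · subst hw; simpa [swp] using hp.2
    · simpa [swp, hw] using hp.1 w
  · rintro ⟨y, a⟩ hp
    rw [Finset.mem_product, Fintype.mem_piFinset] at hp ⊢
    refine ⟨fun w => ?_, hp.1 v⟩
    by_cases hw : w = v
    · subst hw; simpa [swp] using hp.2
    · simpa [swp, hw] using hp.1 w
  · rintro p _; exact swp_invol v p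
  · rintro p _; exact swp_invol v p
  · rintro p _; rfl

omit [DecidableEq Sd] in
/-- resampling one coordinate -/
lemma card_resample (v : Fin M) (P : (Fin M → Sd) → Prop) [DecidablePred P] (c : ℕ)
    (h : ∀ y, (univ.filter fun a => P (Function.update y v a)).card ≤ c) :
    (univ.filter P).card * Fintype.card Sd ≤ c * Fintype.card Sd ^ M := by
  have h1 := sum_resample_pi v (fun _ => (univ : Finset Sd)) (fun y => if P y then (1 : ℝ) else 0)
  rw [Fintype.piFinset_univ] at h1
  have h2 : ∑ y : Fin M → Sd, (if P y then (1 : ℝ) else 0) = (univ.filter P).card := by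
    rw [Finset.card_filter]; push_cast; rfl
  have h3 : ∀ y : Fin M → Sd, ∑ a : Sd, (if P (Function.update y v a) then (1 : ℝ) else 0) ≤ c := by
    intro y
    have h4 : ∑ a : Sd, (if P (Function.update y v a) then (1 : ℝ) else 0) =
        ((univ.filter fun a => P (Function.update y v a)).card : ℝ) := by
      rw [Finset.card_filter]; push_cast; rfl
    rw [h4]
    exact_mod_cast h y
  have h5 : ∑ y : Fin M → Sd, ∑ a : Sd, (if P (Function.update y v a) then (1 : ℝ) else 0) ≤
      ∑ _y : Fin M → Sd, (c : ℝ) := Finset.sum_le_sum fun y _ => h3 y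
  rw [h1, h2] at h5
  simp only [Finset.sum_const, Finset.card_univ, nsmul_eq_mul, Fintype.card_fun,
    Fintype.card_fin] at h5
  have h6 : ((univ.filter P).card * Fintype.card Sd : ℝ) ≤ c * (Fintype.card Sd : ℝ) ^ M := by
    push_cast at h5
    linarith
  exact_mod_cast h6

end Count

section View

variable {X : Type} [AddCommGroup X] [Module (ZMod 2) X] {M : ℕ} {Sd : Type}

/-- view along a list of nodes -/
def lview (N : NodeSys X M Sd) (R : Finset (Fin M)) (y : Fin M → Sd) (l : List (Fin M)) :
    X →ₗ[ZMod 2] X :=
  l.foldl (fun f v => if v ∈ R then f else (N.op v (y v)).comp f) LinearMap.id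

lemma view_eq_lview (N : NodeSys X M Sd) (R : Finset (Fin M)) (y : Fin M → Sd) :
    N.view R y = lview N R y (List.finRange M) := rfl

lemma lview_nil (N : NodeSys X M Sd) (R : Finset (Fin M)) (y : Fin M → Sd) :
    lview N R y [] = LinearMap.id := rfl

lemma lview_concat_mem (N : NodeSys X M Sd) (R : Finset (Fin M)) (y : Fin M → Sd)
    (l : List (Fin M)) (v : Fin M) (hv : v ∈ R) : lview N R y (l ++ [v]) = lview N R y l := by
  unfold lview
  rw [List.foldl_append]
  simp [hv]

lemma lview_concat_notMem (N : NodeSys X M Sd) (R : Finset (Fin M)) (y : Fin M → Sd)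
    (l : List (Fin M)) (v : Fin M) (hv : v ∉ R) :
    lview N R y (l ++ [v]) = (N.op v (y v)).comp (lview N R y l) := by
  unfold lview
  rw [List.foldl_append]
  simp [hv]

/-- the view along `l` depends only on the seeds of `l` -/
lemma lview_congr (N : NodeSys X M Sd) (R : Finset (Fin M)) (y y' : Fin M → Sd)
    (l : List (Fin M)) (h : ∀ v ∈ l, y v = y' v) : lview N R y l = lview N R y' l := by
  induction l using List.reverseRecOn with
  | nil => rfl
  | append_singleton l v ih =>
    have ih' := ih fun w hw => h w (by simp [hw])
    by_cases hv : v ∈ R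
    · rw [lview_concat_mem _ _ _ _ _ hv, lview_concat_mem _ _ _ _ _ hv, ih']
    · rw [lview_concat_notMem _ _ _ _ _ hv, lview_concat_notMem _ _ _ _ _ hv, ih',
        h v (by simp)]

lemma lview_update (N : NodeSys X M Sd) (R : Finset (Fin M)) (y : Fin M → Sd)
    (l : List (Fin M)) (v : Fin M) (hv : v ∉ l) (a : Sd) :
    lview N R (Function.update y v a) l = lview N R y l :=
  lview_congr N R _ _ l fun w hw => by
    rw [Function.update_of_ne]
    rintro rfl
    exact hv hw

end View

/-- killing along a list -/
lemma kill_list {X : Type} [AddCommGroup X] [Module (ZMod 2) X] [Fintype X] [DecidableEq X]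
    {M n m' dT : ℕ} {Sd : Type} [Fintype Sd] [DecidableEq Sd] (N : NodeSys X M Sd)
    (hN : N.Good n m' dT) (R : Finset (Fin M)) (x : X) (hx : x ≠ 0) (l : List (Fin M))
    (hl : l.Nodup) :
    (univ.filter fun y : Fin M → Sd => lview N R y l x = 0).card * Fintype.card Sd ≤
      l.length * n * Fintype.card Sd ^ M := by
  induction l using List.reverseRecOn with
  | nil =>
    have : (univ.filter fun y : Fin M → Sd => lview N R y [] x = 0) = ∅ := by
      refine Finset.filter_eq_empty_iff.2 fun y _ => ?_
      rw [lview_nil]
      exact hx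
    rw [this]
    simp
  | append_singleton l v ih =>
    have hnd := List.nodup_append.1 hl
    have hvl : v ∉ l := fun h => hnd.2.2 v h v (by simp) rfl
    have ih' := ih hnd.1
    by_cases hv : v ∈ R
    · have h1 : (univ.filter fun y : Fin M → Sd => lview N R y (l ++ [v]) x = 0) =
          (univ.filter fun y : Fin M → Sd => lview N R y l x = 0) := by
        refine Finset.filter_congr fun y _ => ?_
        rw [lview_concat_mem _ _ _ _ _ hv]
      rw [h1]
      refine ih'.trans ?_
      rw [List.length_append]
      gcongr
      simp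
    · have h1 : (univ.filter fun y : Fin M → Sd => lview N R y (l ++ [v]) x = 0) ⊆
          (univ.filter fun y : Fin M → Sd => lview N R y l x = 0) ∪
          (univ.filter fun y : Fin M → Sd =>
            lview N R y l x ≠ 0 ∧ N.op v (y v) (lview N R y l x) = 0) := by
        intro y hy
        rw [mem_filter, lview_concat_notMem _ _ _ _ _ hv, LinearMap.comp_apply] at hy
        rw [mem_union, mem_filter, mem_filter]
        by_cases h0 : lview N R y l x = 0
        · exact Or.inl ⟨mem_univ _, h0⟩
        · exact Or.inr ⟨mem_univ _, h0, hy.2⟩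
      have h2 : (univ.filter fun y : Fin M → Sd =>
          lview N R y l x ≠ 0 ∧ N.op v (y v) (lview N R y l x) = 0).card * Fintype.card Sd ≤
          n * Fintype.card Sd ^ M := by
        refine card_resample v _ n fun y => ?_
        simp only [lview_update N R y l v hvl, Function.update_self]
        by_cases h0 : lview N R y l x = 0
        · simp [h0]
        · refine (hN.kill v _ h0 _ fun a ha => ?_).le
          exact ((mem_filter.1 ha).2).2
      calc (univ.filter fun y : Fin M → Sd => lview N R y (l ++ [v]) x = 0).card *
            Fintype.card Sd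
          ≤ ((univ.filter fun y : Fin M → Sd => lview N R y l x = 0).card +
            (univ.filter fun y : Fin M → Sd =>
              lview N R y l x ≠ 0 ∧ N.op v (y v) (lview N R y l x) = 0).card) *
              Fintype.card Sd :=
            Nat.mul_le_mul_right _ ((card_le_card h1).trans (card_union_le _ _))
        _ ≤ l.length * n * Fintype.card Sd ^ M + n * Fintype.card Sd ^ M := by
            rw [Nat.add_mul]
            exact Nat.add_le_add ih' h2
        _ = (l ++ [v]).length * n * Fintype.card Sd ^ M := by
            rw [List.length_append, List.length_singleton]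
            ring

theorem spec_kill : SpecKILL := by
  intro X _ _ _ _ M n m' dT Sd _ _ N hN R x hx
  have h := kill_list N hN R x hx (List.finRange M) (List.nodup_finRange M)
  rw [List.length_finRange] at h
  simp only [← view_eq_lview] at h
  exact_mod_cast h

end Vale.Agent.P318.H40
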