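import Vale.Agent.P318.H40.Kill
import Vale.Agent.P318.H770.Meas

/-!
# P318: `SpecLOW`, `SpecLOW2` (second source)
-/

open Finset

namespace Vale.Agent.P318.H40

open Vale.Agent.P318.H937

section Gen

variable {Z : Type} [DecidableEq Z] {M : ℕ} {Sd : Type}

/-- composition of a family of maps along a list of nodes -/
def gv (T : Fin M → Sd → Z → Z) (R : Finset (Fin M)) (y : Fin M → Sd) (l : List (Fin M)) :
    Z → Z :=
  l.foldl (fun f v => if v ∈ R then f else T v (y v) ∘ f) id

omit [DecidableEq Z] in
lemma gv_concat (T : Fin M → Sd → Z → Z) (R : Finset (Fin M)) (y : Fin M → Sd)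
    (l : List (Fin M)) (v : Fin M) :
    gv T R y (l ++ [v]) = if v ∈ R then gv T R y l else T v (y v) ∘ gv T R y l := by
  unfold gv
  rw [List.foldl_append]
  simp

omit [DecidableEq Z] in
lemma gv_congr (T : Fin M → Sd → Z → Z) (R : Finset (Fin M)) (y y' : Fin M → Sd)
    (l : List (Fin M)) (h : ∀ v ∈ l, y v = y' v) : gv T R y l = gv T R y' l := by
  induction l using List.reverseRecOn with
  | nil => rfl
  | append_singleton l v ih =>
    have ih' := ih fun w hw => h w (by simp [hw])
    rw [gv_concat, gv_concat, ih', h v (by simp)]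

omit [DecidableEq Z] in
lemma gv_update (T : Fin M → Sd → Z → Z) (R : Finset (Fin M)) (y : Fin M → Sd)
    (l : List (Fin M)) (v : Fin M) (hv : v ∉ l) (a : Sd) :
    gv T R (Function.update y v a) l = gv T R y l :=
  gv_congr T R _ _ l fun w hw => by
    rw [Function.update_of_ne]
    rintro rfl
    exact hv hw

/-- losslessness along a list -/
lemma gv_low (T : Fin M → Sd → Z → Z) (S : Fin M → Finset Sd) (Dn : ℕ)
    (hS : ∀ v, (S v).card = Dn) (W : ℕ) (θ : ℝ) (hθ : 0 ≤ θ)
    (hT : ∀ (v : Fin M) (U : Finset Z), U.card ≤ W →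
      (((S v).card : ℝ) - θ) * U.card ≤ ∑ a ∈ S v, ((U.image (T v a)).card : ℝ))
    (R : Finset (Fin M)) (U : Finset Z) (hU : U.card ≤ W) (l : List (Fin M)) (hl : l.Nodup) :
    ((Dn : ℝ) - l.length * θ) * ((Dn : ℝ) ^ M * U.card) ≤
      Dn * ∑ y ∈ Fintype.piFinset S, ((U.image (gv T R y l)).card : ℝ) := by
  have hcard : ((Fintype.piFinset S).card : ℝ) = (Dn : ℝ) ^ M := by
    rw [Fintype.card_piFinset]
    simp [hS]
  induction l using List.reverseRecOn with
  | nil =>
    have h1 : ∀ y : Fin M → Sd, gv T R y [] = id := fun _ => rfl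
    simp only [h1, Finset.image_id, Finset.sum_const, nsmul_eq_mul, hcard, List.length_nil]
    simp
  | append_singleton l v ih =>
    have hnd := List.nodup_append.1 hl
    have hvl : v ∉ l := fun h => hnd.2.2 v h v (by simp) rfl
    have ih' := ih hnd.1
    have hlen : ((l ++ [v]).length : ℝ) = l.length + 1 := by simp
    have hpos : 0 ≤ θ * ((Dn : ℝ) ^ M * U.card) := by positivity
    by_cases hv : v ∈ R
    · have h1 : ∀ y : Fin M → Sd, gv T R y (l ++ [v]) = gv T R y l := fun y => by
        rw [gv_concat, if_pos hv]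
      simp only [h1, hlen]
      refine le_trans ?_ ih'
      nlinarith
    · have h1 := sum_resample_pi v S fun y => ((U.image (gv T R y (l ++ [v]))).card : ℝ)
      have h2 : ∀ y ∈ Fintype.piFinset S, (Dn : ℝ) * (U.image (gv T R y l)).card - θ * U.card ≤
          ∑ a ∈ S v, ((U.image (gv T R (Function.update y v a) (l ++ [v]))).card : ℝ) := by
        intro y _
        have h3 : ∀ a, U.image (gv T R (Function.update y v a) (l ++ [v])) =
            (U.image (gv T R y l)).image (T v a) := by
          intro a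
          rw [gv_concat, if_neg hv, gv_update T R y l v hvl, Function.update_self,
            Finset.image_image]
        simp only [h3]
        refine le_trans ?_ (hT v _ (Finset.card_image_le.trans hU))
        rw [hS v]
        have h4 : ((U.image (gv T R y l)).card : ℝ) ≤ U.card := by
          exact_mod_cast Finset.card_image_le
        nlinarith
      have h5 := Finset.sum_le_sum h2
      rw [h1, hS v, Finset.sum_sub_distrib, ← Finset.mul_sum, Finset.sum_const, nsmul_eq_mul,
        hcard] at h5
      rw [hlen]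
      nlinarith

end Gen

section Lin

variable {X : Type} [AddCommGroup X] [Module (ZMod 2) X] {M : ℕ} {Sd : Type}

lemma lview_eq_gv (N : NodeSys X M Sd) (R : Finset (Fin M)) (y : Fin M → Sd)
    (l : List (Fin M)) :
    (lview N R y l : X → X) = gv (fun v a => (N.op v a : X → X)) R y l := by
  induction l using List.reverseRecOn with
  | nil => rfl
  | append_singleton l v ih =>
    rw [gv_concat, ← ih]
    by_cases hv : v ∈ R
    · rw [lview_concat_mem _ _ _ _ _ hv, if_pos hv]
    · rw [lview_concat_notMem _ _ _ _ _ hv, if_neg hv, LinearMap.coe_comp]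

lemma lview2_eq_gv (N : NodeSys X M Sd) (R : Finset (Fin M)) (y : Fin M → Sd)
    (l : List (Fin M)) :
    Prod.map (lview N R y l) (lview N R y l) =
      gv (fun v a => Prod.map (N.op v a) (N.op v a)) R y l := by
  induction l using List.reverseRecOn with
  | nil => rfl
  | append_singleton l v ih =>
    rw [gv_concat, ← ih]
    by_cases hv : v ∈ R
    · rw [lview_concat_mem _ _ _ _ _ hv, if_pos hv]
    · rw [lview_concat_notMem _ _ _ _ _ hv, if_neg hv, LinearMap.coe_comp]
      rfl

end Lin

/-- form with the division -/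
lemma div_form {M Dn : ℕ} (hD : 0 < Dn) {θ A S : ℝ}
    (h : ((Dn : ℝ) - M * θ) * A ≤ Dn * S) : (1 - M * θ / Dn) * A ≤ S := by
  have hD' : (0 : ℝ) < Dn := by exact_mod_cast hD
  have h1 : (1 - M * θ / Dn) * A = ((Dn : ℝ) - M * θ) * A / Dn := by
    field_simp
  rw [h1, div_le_iff₀ hD']
  linarith

/-- images of a set under the views of a grid -/
theorem low_image {X : Type} [AddCommGroup X] [Module (ZMod 2) X] [Fintype X]
    [DecidableEq X] {M n m' dT Dn : ℕ} {Sd : Type}
    (N : NodeSys X M Sd) (hN : N.Good n m' dT) (S : Fin M → Finset Sd)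
    (hS : ∀ v, (S v).card = Dn) (hD : 0 < Dn) (R : Finset (Fin M)) (U : Finset X)
    (hU : U.card ≤ 2 ^ m') :
    (1 - M * ((2 * m' + 1) * (n * m')) / Dn) * ((Dn : ℝ) ^ M * U.card) ≤
      ∑ y ∈ Fintype.piFinset S, ((U.image (N.view R y)).card : ℝ) := by
  refine div_form hD ?_
  have h := gv_low (fun v a => (N.op v a : X → X)) S Dn hS (2 ^ m')
    ((2 * m' + 1) * (n * m') : ℝ) (by positivity)
    (fun v U hU => by simpa using hN.lossless v (S v) U hU) R U hU (List.finRange M)
    (List.nodup_finRange M)
  rw [List.length_finRange] at h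
  simp only [← lview_eq_gv, ← view_eq_lview] at h
  exact h

theorem spec_low2 : SpecLOW2 := by
  intro X _ _ _ _ M n m' dT Dn Sd _ _ N hN S hS hD R U hU
  rw [mul_assoc]
  refine div_form hD ?_
  have h := gv_low (fun v a => Prod.map (N.op v a) (N.op v a)) S Dn hS (2 ^ m')
    ((2 * m' + 1) * (n * m') : ℝ) (by positivity)
    (fun v U hU => by simpa using hN.lossless2 v (S v) U hU) R U hU (List.finRange M)
    (List.nodup_finRange M)
  rw [List.length_finRange] at h
  simp only [← lview2_eq_gv, ← view_eq_lview] at h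
  exact h

/-- push-forward of a mod-2 measure and the image of its support -/
lemma two_mul_image_le {X Y : Type} [Fintype X] [Fintype Y] [DecidableEq X] [DecidableEq Y]
    (f : X → Y) (D : X → ZMod 2) :
    2 * ((univ.filter fun x => D x ≠ 0).image f).card ≤ sz D + sz (push f D) := by
  have h1 := H770.two_mul_card_image_le f (H770.sup D)
  have h2 := H770.card_iso_le_sz_push f D
  have h3 : H770.sz (H770.push f D) = sz (push f D) := rfl
  have h4 : (H770.sup D).card = sz D := rfl
  rw [h3] at h2
  rw [h4] at h1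
  exact h1.trans (Nat.add_le_add_left h2 _)

theorem spec_low : SpecLOW := by
  intro X _ _ _ _ M n m' dT Dn Sd _ _ N hN S hS hD R D hDm
  have h := low_image N hN S hS hD R (univ.filter fun x => D x ≠ 0) hDm
  have hcard : ((Fintype.piFinset S).card : ℝ) = (Dn : ℝ) ^ M := by
    rw [Fintype.card_piFinset]
    simp [hS]
  have h2 : ∀ y ∈ Fintype.piFinset S,
      2 * (((univ.filter fun x => D x ≠ 0).image (N.view R y)).card : ℝ) - sz D ≤
      (sz (push (N.view R y) D) : ℝ) := by
    intro y _
    have h3 := two_mul_image_le (N.view R y) D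
    have h4 : (2 * ((univ.filter fun x => D x ≠ 0).image (N.view R y)).card : ℝ) ≤
        sz D + sz (push (N.view R y) D) := by exact_mod_cast h3
    linarith
  have h5 := Finset.sum_le_sum h2
  rw [Finset.sum_sub_distrib, ← Finset.mul_sum, Finset.sum_const, nsmul_eq_mul, hcard] at h5
  refine le_trans ?_ h5
  have h6 : ((univ.filter fun x => D x ≠ 0).card : ℝ) = sz D := rfl
  rw [h6] at h
  have h7 : (1 - 2 * (M : ℝ) * ((2 * m' + 1) * (n * m')) / Dn) * (Dn : ℝ) ^ M * sz D =
      2 * ((1 - M * ((2 * m' + 1) * (n * m')) / Dn) * ((Dn : ℝ) ^ M * sz D)) -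
        (Dn : ℝ) ^ M * sz D := by ring
  rw [h7]
  linarith

end Vale.Agent.P318.H40
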